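import Vale.Agent.P196.Simple.Defs

/-!
# P196: local translations of the alternating full group, 3-cycles in charts
-/

namespace Vale.Agent.P196.Simple

open Equiv

variable {V X : Type*} [AddCommGroup V] [TopologicalSpace X] [AddAction V X]
  [ContinuousConstVAdd V X] {m : ℕ} {T : Type*}

theorem isLocTrans_one : IsLocTrans V X m 1 :=
  fun p => ⟨Set.univ, isOpen_univ, trivial, (0, p.2), fun x _ => by simp⟩

theorem isLocTrans_mul {g h : Perm (X × Fin m)} (hg : IsLocTrans V X m g)
    (hh : IsLocTrans V X m h) : IsLocTrans V X m (g * h) := by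
  intro p
  obtain ⟨U, hU, hp, ⟨v, j⟩, hq⟩ := hh p
  obtain ⟨W, hW, hpW, ⟨w, k⟩, hr⟩ := hg (v +ᵥ p.1, j)
  refine ⟨U ∩ (fun x => v +ᵥ x) ⁻¹' W, hU.inter (hW.preimage (continuous_const_vadd v)),
    ⟨hp, hpW⟩, (w + v, k), fun x hx => ?_⟩
  rw [Perm.mul_apply, hq x hx.1, hr _ hx.2, add_vadd]

theorem Chart.perm_isLocTrans [Finite T] (c : Chart V X m T) (σ : Perm T) :
    IsLocTrans V X m (c.perm σ) := by
  intro p
  by_cases hp : ∃ a, ∃ x ∈ c.base, c.pt a x = p
  · obtain ⟨a, x, hx, rfl⟩ := hp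
    refine ⟨(fun y => (-(c.slot a).1) +ᵥ y) ⁻¹' c.base,
      c.clopen.isOpen.preimage (continuous_const_vadd _), by simpa [Chart.pt] using hx,
      ((c.slot (σ a)).1 - (c.slot a).1, (c.slot (σ a)).2), fun y hy => ?_⟩
    have h := c.perm_pt σ a hy
    simp only [Chart.pt, vadd_neg_vadd] at h
    simp only [Chart.pt]
    rw [h, sub_eq_add_neg, add_vadd]
  · push Not at hp
    set W : Set X := ⋃ (a : T) (_ : (c.slot a).2 = p.2),
      (fun y => (-(c.slot a).1) +ᵥ y) ⁻¹' c.base with hW
    have hcl : IsClosed W := isClosed_iUnion_of_finite fun a =>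
      isClosed_iUnion_of_finite fun _ => c.clopen.isClosed.preimage (continuous_const_vadd _)
    refine ⟨Wᶜ, hcl.isOpen_compl, ?_, (0, p.2), fun y hy => ?_⟩
    · simp only [hW, Set.mem_compl_iff, Set.mem_iUnion, Set.mem_preimage, not_exists]
      intro a ha hb
      exact hp a _ hb (Prod.ext (vadd_neg_vadd _ _) ha)
    · rw [c.perm_of_not σ fun a z hz h => ?_]
      · simp
      simp only [Chart.pt, Prod.mk.injEq] at h
      refine hy ?_
      simp only [hW, Set.mem_iUnion, Set.mem_preimage]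
      exact ⟨a, h.2, by rw [← h.1, neg_vadd_vadd]; exact hz⟩

theorem isLocTrans_of_mem {g : Perm (X × Fin m)} (hg : g ∈ altGroup V X m) :
    IsLocTrans V X m g := by
  suffices h : IsLocTrans V X m g ∧ IsLocTrans V X m g⁻¹ from h.1
  induction hg using Subgroup.closure_induction with
  | mem g hg =>
    obtain ⟨c, rfl⟩ := hg
    rw [← map_inv]
    exact ⟨c.perm_isLocTrans _, c.perm_isLocTrans _⟩
  | one => exact ⟨isLocTrans_one, by rw [inv_one]; exact isLocTrans_one⟩
  | mul g h _ _ ihg ihh =>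
    exact ⟨isLocTrans_mul ihg.1 ihh.1, by rw [mul_inv_rev]; exact isLocTrans_mul ihh.2 ihg.2⟩
  | inv g _ ih => exact ⟨ih.2, by rw [inv_inv]; exact ih.1⟩

/-- A 3-cycle is the rotation of three points. -/
theorem exists_eq_viaEmbedding [DecidableEq T] [Fintype T] {σ : Perm T} (h : σ.IsThreeCycle) :
    ∃ f : Fin 3 ↪ T, σ = Perm.viaEmbedding (finRotate 3) f := by
  obtain ⟨a, ha⟩ := h.isCycle.nonempty_support
  have hnd := h.nodup_iff_mem_support.mpr ha
  have hsupp := h.support_eq_iff_mem_support.mpr ha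
  simp only [List.nodup_cons, List.mem_cons, not_or, List.not_mem_nil, not_false_iff,
    List.nodup_nil, and_true] at hnd
  obtain ⟨⟨h01, h02⟩, h12⟩ := hnd
  have hinj : Function.Injective ![a, σ a, σ (σ a)] := by
    intro i j hij
    fin_cases i <;> fin_cases j <;> simp_all [eq_comm]
  have h3 : σ (σ (σ a)) = a := by
    have h1 : (σ ^ 3) a = a := by rw [← h.orderOf, pow_orderOf_eq_one]; rfl
    simpa [pow_succ] using h1
  refine ⟨⟨_, hinj⟩, Equiv.ext fun t => ?_⟩
  by_cases ht : t ∈ Set.range ![a, σ a, σ (σ a)]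
  · obtain ⟨i, rfl⟩ := ht
    refine Eq.trans ?_ (Perm.viaEmbedding_apply (finRotate 3) ⟨_, hinj⟩ i).symm
    fin_cases i <;> simp [h3]
  · rw [Perm.viaEmbedding_apply_of_notMem _ _ _ ht]
    by_contra hne
    have : t ∈ σ.support := Perm.mem_support.2 hne
    rw [hsupp] at this
    simp only [Finset.mem_insert, Finset.mem_singleton] at this
    rcases this with rfl | rfl | rfl
    · exact ht ⟨0, rfl⟩
    · exact ht ⟨1, rfl⟩
    · exact ht ⟨2, rfl⟩

theorem Chart.perm_alternating_mem [DecidableEq T] [Fintype T] (c : Chart V X m T) {σ : Perm T}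
    (hσ : σ ∈ alternatingGroup T) : c.perm σ ∈ altGroup V X m := by
  rw [← Perm.closure_three_cycles_eq_alternating] at hσ
  induction hσ using Subgroup.closure_induction with
  | mem τ hτ =>
    obtain ⟨f, rfl⟩ := exists_eq_viaEmbedding hτ
    exact Subgroup.subset_closure ⟨c.comap f, (c.perm_comap f _).symm⟩
  | one => rw [map_one]; exact one_mem _
  | mul a b _ _ iha ihb => rw [map_mul]; exact mul_mem iha ihb
  | inv a _ ih => rw [map_inv]; exact inv_mem ih

theorem viaEmbedding_rotate_mem [DecidableEq T] [Fintype T] (f : Fin 3 ↪ T) :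
    Perm.viaEmbedding (finRotate 3) f ∈ alternatingGroup T := by
  classical
  rw [Perm.mem_alternatingGroup, Perm.viaEmbedding, Perm.sign_extendDomain, sign_finRotate]
  simp

end Vale.Agent.P196.Simple
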