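import Vale.Agent.P196.Simple.Main
import Vale.Agent.P196.Sft.Full

/-!
# P196: the macro-tile shift is minimal, so its alternating full group is infinite and simple

Minimality uses the `3 × 3` form of `mixes`: a patch across two parents is drawn from a `3 × 3`
block of parents.
-/

namespace Vale.Agent.P196.Sft

namespace MacroSystem

variable (S : MacroSystem)

private theorem ediv_pair {z i c : ℤ} (hz : 8 ≤ z) (hc : -3 ≤ c) (hc' : c ≤ 1) :
    (i - 3) / z ≤ (i + c) / z ∧ (i + c) / z ≤ (i - 3) / z + 1 := by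
  refine ⟨Int.ediv_le_ediv (by omega) (by omega), ?_⟩
  calc (i + c) / z ≤ (i - 3 + 1 * z) / z := Int.ediv_le_ediv (by omega) (by omega)
    _ = (i - 3) / z + 1 := Int.add_mul_ediv_right _ _ (by omega)

/-- A `5 × 5` block of one tiling of level `n` occurs in every other. -/
theorem exists_block (n : ℕ) (A B : S.Conf n) :
    ∃ q : Cell, ∀ c : Cell, -3 ≤ c.1 → c.1 ≤ 1 → -3 ≤ c.2 → c.2 ≤ 1 →
      (S.act n q B).1 c = A.1 c := by
  have hz : (8 : ℤ) ≤ S.Z n := by exact_mod_cast S.zoom_ge n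
  set i := S.res n A with hi
  let l : Cell := (((i.1.val : ℤ) - 3) / S.Z n, ((i.2.val : ℤ) - 3) / S.Z n)
  obtain ⟨u, hu⟩ := S.mixes (n + 1) (S.act (n + 1) (l + (1, 1)) (S.par n A)).1 (S.par n B).1
    (S.act _ _ _).2 (S.par n B).2
  let δ : Cell := u - (l + (1, 1))
  let q : Cell := ((i.1.val : ℤ) - (S.res n B).1.val + δ.1 * S.Z n,
    (i.2.val : ℤ) - (S.res n B).2.val + δ.2 * S.Z n)
  have e1 : ((S.res n B).1.val : ℤ) + q.1 = i.1.val + δ.1 * S.Z n := by simp only [q]; ring
  have e2 : ((S.res n B).2.val : ℤ) + q.2 = i.2.val + δ.2 * S.Z n := by simp only [q]; ring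
  have hres : S.res n (S.act n q B) = i := by
    have h1 := S.res_fst_act n q B
    have h2 := S.res_snd_act n q B
    rw [e1, Int.add_mul_emod_self_right,
      Int.emod_eq_of_lt (by omega) (by exact_mod_cast i.1.isLt)] at h1
    rw [e2, Int.add_mul_emod_self_right,
      Int.emod_eq_of_lt (by omega) (by exact_mod_cast i.2.isLt)] at h2
    exact Prod.ext (Fin.ext (by exact_mod_cast h1)) (Fin.ext (by exact_mod_cast h2))
  have hpar : S.par n (S.act n q B) = S.act (n + 1) δ (S.par n B) := by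
    rw [par_act]
    congr 1
    simp only [Res.cell]
    rw [e1, e2, Int.add_mul_ediv_right _ _ (by omega), Int.add_mul_ediv_right _ _ (by omega),
      Int.ediv_eq_zero_of_lt (by omega) (by exact_mod_cast i.1.isLt),
      Int.ediv_eq_zero_of_lt (by omega) (by exact_mod_cast i.2.isLt)]
    simp
  refine ⟨q, fun c c1 c2 c3 c4 => ?_⟩
  rw [S.apply_eq n _ c, S.apply_eq n A c, S.res_act n c, S.res_act n c, hres, ← hi]
  congr 1
  simp only [win, par_act, hpar, hres, ← hi]
  funext d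
  simp only [windowAt, act, shiftBy, Res.cell]
  obtain ⟨u1, u2⟩ := ediv_pair (i := (i.1.val : ℤ)) hz c1 c2
  obtain ⟨u3, u4⟩ := ediv_pair (i := (i.2.val : ℤ)) hz c3 c4
  have d1 := d.1.isLt
  have d2 := d.2.isLt
  set a : Cell := (-1 + (d.1.val : ℤ) + ((i.1.val : ℤ) + c.1) / S.Z n,
    -1 + (d.2.val : ℤ) + ((i.2.val : ℤ) + c.2) / S.Z n) with ha
  have key := hu (a - (l + (1, 1))) (by simp [a, l]; omega) (by simp [a, l]; omega)
    (by simp [a, l]; omega) (by simp [a, l]; omega)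
  simp only [act, shiftBy] at key
  have l1 : (a.1 + δ.1, a.2 + δ.2) = u + (a - (l + (1, 1))) := by
    ext <;> simp [δ] <;> ring
  have l2 : ((a - (l + (1, 1))).1 + (l + (1, 1)).1, (a - (l + (1, 1))).2 + (l + (1, 1)).2) = a := by
    ext <;> simp
  rw [l2, ← l1] at key
  exact key

/-- Every orbit is dense. -/
theorem exists_vadd_mem (x : S.Conf 0) (O : Set (S.Conf 0)) (hO : IsOpen O)
    (hne : O.Nonempty) : ∃ v : Cell, v +ᵥ x ∈ O := by
  obtain ⟨t, ht⟩ := hne
  obtain ⟨U, hU, rfl⟩ := isOpen_induced_iff.1 hO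
  obtain ⟨I, w, hw, hwU⟩ := isOpen_pi_iff.1 hU t.1 ht
  let k := I.sup fun c : Cell => max c.1.natAbs c.2.natAbs
  obtain ⟨q, hq⟩ := S.exists_block k (S.tile k t) (S.tile k x)
  have hP : (0 : ℤ) < S.P k := by exact_mod_cast S.P_pos k
  obtain ⟨⟨a1, a1'⟩, a2, a2'⟩ := S.pos_mem k t
  let v : Cell := ((S.pos k t).1 - (S.pos k x).1 + q.1 * S.P k,
    (S.pos k t).2 - (S.pos k x).2 + q.2 * S.P k)
  have e1 : (S.pos k x).1 + v.1 = (S.pos k t).1 + q.1 * S.P k := by simp only [v]; ring
  have e2 : (S.pos k x).2 + v.2 = (S.pos k t).2 + q.2 * S.P k := by simp only [v]; ring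
  have hpos : S.pos k (S.act 0 v x) = S.pos k t := by
    rw [pos_act, e1, e2, Int.add_mul_emod_self_right, Int.add_mul_emod_self_right,
      Int.emod_eq_of_lt a1 a1', Int.emod_eq_of_lt a2 a2']
  have htile : S.tile k (S.act 0 v x) = S.act k q (S.tile k x) := by
    rw [tile_act, e1, e2, Int.add_mul_ediv_right _ _ hP.ne', Int.add_mul_ediv_right _ _ hP.ne',
      Int.ediv_eq_zero_of_lt a1 a1', Int.ediv_eq_zero_of_lt a2 a2', zero_add, zero_add]
  refine ⟨v, hwU fun c hc => ?_⟩
  have hb := Finset.le_sup (f := fun c : Cell => max c.1.natAbs c.2.natAbs) hc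
  simp only [max_le_iff] at hb
  have hk := S.le_P k
  have e := S.apply_congr k (S.act 0 v x) t hpos (by rw [htile]; exact hq) c
    (by rw [abs_le]; omega) (by rw [abs_le]; omega)
  show (S.act 0 v x).1 c ∈ w c
  rw [e]
  exact (hw c hc).2

theorem infinite_conf : Infinite (S.Conf 0) := by
  obtain ⟨t, ht⟩ := S.legal_nonempty 0
  exact Infinite.of_injective _ (S.vadd_injective ⟨t, ht⟩)

/-- The alternating full group lies in the full group. -/
theorem altGroup_le_fullGroup (m : ℕ) :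
    Simple.altGroup Cell (S.Conf 0) m ≤ S.fullGroup m := by
  have key : ∀ g : Equiv.Perm (S.Pt m), Simple.IsLocTrans Cell (S.Conf 0) m g →
      ∃ d, S.IsDisp g d := by
    intro g hg
    have h : ∀ p : S.Pt m, ∃ v : Cell, (g p).1 = v +ᵥ p.1 := fun p => by
      obtain ⟨U, -, hp, q, hq⟩ := hg p
      exact ⟨q.1, congrArg Prod.fst (hq p.1 hp)⟩
    choose d hd using h
    have loc : ∀ p : S.Pt m, ∀ᶠ y in nhds p, d y = d p ∧ (g y).2 = (g p).2 := by
      intro p
      obtain ⟨U, hU, hp, q, hq⟩ := hg p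
      filter_upwards [(hU.prod (isOpen_discrete {p.2})).mem_nhds ⟨hp, rfl⟩] with y hy
      obtain ⟨y1, y2⟩ := y
      obtain ⟨hy1, rfl⟩ := hy
      have f : ∀ z : S.Pt m, g z = (q.1 +ᵥ z.1, q.2) → d z = q.1 := fun z hz =>
        S.vadd_injective z.1 ((hd z).symm.trans (congrArg Prod.fst hz))
      exact ⟨(f _ (hq y1 hy1)).trans (f p (hq p.1 hp)).symm,
        (congrArg Prod.snd (hq y1 hy1)).trans (congrArg Prod.snd (hq p.1 hp)).symm⟩
    exact ⟨d, (IsLocallyConstant.iff_eventually_eq _).2 fun p => (loc p).mono fun _ h => h.1,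
      (IsLocallyConstant.iff_eventually_eq _).2 fun p => (loc p).mono fun _ h => h.2, hd⟩
  intro g hg
  exact ⟨key g (Simple.isLocTrans_of_mem hg), key g⁻¹ (Simple.isLocTrans_of_mem (inv_mem hg))⟩

/-- The alternating full group of the shift times `m ≥ 5` points is infinite and simple. -/
theorem isSimpleGroup_and_infinite_altGroup {m : ℕ} (hm : 5 ≤ m) :
    IsSimpleGroup (Simple.altGroup Cell (S.Conf 0) m) ∧
      Infinite (Simple.altGroup Cell (S.Conf 0) m) :=
  have := S.infinite_conf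
  ⟨Simple.isSimpleGroup_altGroup (S.act_free) S.exists_vadd_mem hm,
    Simple.infinite_altGroup (by omega)⟩

end MacroSystem

end Vale.Agent.P196.Sft
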