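import Mathlib

/-!
# P196: charts, local translations and the alternating full group

Points are pairs `(x, i)` of a point of `X` and an index in `Fin m`. A chart is a clopen base with
finitely many slots (a translation and an index) whose images of the base are disjoint; it turns
permutations of the slots into permutations of the points. The alternating full group is generated
by the images of 3-cycles.
-/

namespace Vale.Agent.P196.Simple

open Equiv

/-- A clopen base with slots moving it to disjoint sets. -/
structure Chart (V X : Type*) [AddCommGroup V] [TopologicalSpace X] [AddAction V X] (m : ℕ)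
    (T : Type*) where
  base : Set X
  clopen : IsClopen base
  slot : T → V × Fin m
  disj : ∀ a b, ∀ x ∈ base, ∀ y ∈ base, (slot a).2 = (slot b).2 →
    (slot a).1 +ᵥ x = (slot b).1 +ᵥ y → a = b

namespace Chart

variable {V X : Type*} [AddCommGroup V] [TopologicalSpace X] [AddAction V X] {m : ℕ} {T S : Type*}

/-- The point of a slot over a point of the base. -/
def pt (c : Chart V X m T) (a : T) (x : X) : X × Fin m := ((c.slot a).1 +ᵥ x, (c.slot a).2)

/-- The base times the slots, as a subset of the points. -/
def emb (c : Chart V X m T) : c.base × T ↪ X × Fin m where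
  toFun p := c.pt p.2 p.1.1
  inj' := by
    rintro ⟨⟨x, hx⟩, a⟩ ⟨⟨y, hy⟩, b⟩ h
    simp only [pt, Prod.mk.injEq] at h
    obtain rfl := c.disj a b x hx y hy h.2 h.1
    obtain rfl : x = y := (vadd_left_cancel_iff _).1 h.1
    rfl

/-- Permutations of slots acting on the right factor. -/
def onSlots (B : Type*) (T : Type*) : Perm T →* Perm (B × T) where
  toFun σ := Equiv.prodCongr (Equiv.refl B) σ
  map_one' := by ext <;> rfl
  map_mul' σ τ := by ext <;> rfl

/-- The permutation of the points given by a permutation of the slots. -/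
noncomputable def perm (c : Chart V X m T) : Perm T →* Perm (X × Fin m) :=
  (Perm.viaEmbeddingHom c.emb).comp (onSlots c.base T)

theorem perm_pt (c : Chart V X m T) (σ : Perm T) (a : T) {x : X} (hx : x ∈ c.base) :
    c.perm σ (c.pt a x) = c.pt (σ a) x :=
  Perm.viaEmbedding_apply (onSlots c.base T σ) c.emb (⟨x, hx⟩, a)

theorem perm_of_not (c : Chart V X m T) (σ : Perm T) {p : X × Fin m}
    (hp : ∀ a, ∀ x ∈ c.base, c.pt a x ≠ p) : c.perm σ p = p :=
  Perm.viaEmbedding_apply_of_notMem (onSlots c.base T σ) c.emb p
    fun ⟨⟨⟨x, hx⟩, a⟩, h⟩ => hp a x hx h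

theorem perm_injective (c : Chart V X m T) (hne : c.base.Nonempty) :
    Function.Injective c.perm := by
  intro σ τ h
  ext a
  obtain ⟨x, hx⟩ := hne
  have h' := Equiv.ext_iff.1 h (c.pt a x)
  rw [c.perm_pt σ a hx, c.perm_pt τ a hx] at h'
  simp only [pt, Prod.mk.injEq] at h'
  exact c.disj _ _ x hx x hx h'.2 h'.1

/-- Two charts with the same points over each base point give the same permutations. -/
theorem perm_congr (c d : Chart V X m T) (hb : c.base = d.base) (hs : c.slot = d.slot) :
    c.perm = d.perm := by
  obtain ⟨_, _, _, _⟩ := c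
  obtain ⟨_, _, _, _⟩ := d
  subst hb hs
  rfl

/-- A chart on a smaller base. -/
def restrict (c : Chart V X m T) (U : Set X) (hU : IsClopen U) (hsub : U ⊆ c.base) :
    Chart V X m T where
  base := U
  clopen := hU
  slot := c.slot
  disj a b x hx y hy := c.disj a b x (hsub hx) y (hsub hy)

/-- Fewer slots. -/
def comap (c : Chart V X m T) (f : S ↪ T) : Chart V X m S where
  base := c.base
  clopen := c.clopen
  slot a := c.slot (f a)
  disj a b x hx y hy h1 h2 := f.injective (c.disj (f a) (f b) x hx y hy h1 h2)

theorem perm_comap (c : Chart V X m T) (f : S ↪ T) (σ : Perm S) :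
    (c.comap f).perm σ = c.perm (Perm.viaEmbedding σ f) := by
  refine Equiv.ext fun p => ?_
  by_cases hp : ∃ a, ∃ x ∈ c.base, c.pt a x = p
  · obtain ⟨a, x, hx, rfl⟩ := hp
    rw [c.perm_pt _ a hx]
    by_cases ha : a ∈ Set.range f
    · obtain ⟨b, rfl⟩ := ha
      rw [Perm.viaEmbedding_apply]
      exact (c.comap f).perm_pt σ b hx
    · rw [Perm.viaEmbedding_apply_of_notMem σ f a ha]
      refine perm_of_not _ _ fun b y hy h => ha ⟨b, ?_⟩
      simp only [pt, comap, Prod.mk.injEq] at h
      exact c.disj _ _ y hy x hx h.2 h.1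
  · push Not at hp
    rw [c.perm_of_not _ hp]
    exact perm_of_not _ _ fun b y hy => hp (f b) y hy

end Chart

variable (V X : Type*) [AddCommGroup V] [TopologicalSpace X] [AddAction V X] (m : ℕ)

/-- The clopen 3-cycles. -/
def threeCycles : Set (Perm (X × Fin m)) :=
  {g | ∃ c : Chart V X m (Fin 3), g = c.perm (finRotate 3)}

/-- The alternating full group: generated by the clopen 3-cycles. -/
def altGroup : Subgroup (Perm (X × Fin m)) := Subgroup.closure (threeCycles V X m)

/-- Locally, `g` is a translation followed by a change of index. -/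
def IsLocTrans (g : Perm (X × Fin m)) : Prop :=
  ∀ p : X × Fin m, ∃ U : Set X, IsOpen U ∧ p.1 ∈ U ∧
    ∃ q : V × Fin m, ∀ x ∈ U, g (x, p.2) = (q.1 +ᵥ x, q.2)

end Vale.Agent.P196.Simple
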