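import Vale.Agent.P196.Simple.Basic

/-!
# P196: the alternating full group of a free minimal action is simple and infinite

A nontrivial element moves some small clopen set off itself, so its commutator with a 3-cycle over
that set is a nontrivial even permutation of finitely many slots; hence a normal subgroup contains
all even permutations of the slots there, and by minimality all clopen 3-cycles.
-/

namespace Vale.Agent.P196.Simple

open Equiv Pointwise

variable {V X : Type*} [AddCommGroup V] [TopologicalSpace X] [AddAction V X]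
  [ContinuousConstVAdd V X] [CompactSpace X] [T2Space X] [TotallyDisconnectedSpace X] {m : ℕ}

omit [CompactSpace X] [TotallyDisconnectedSpace X] in
theorem eventually_disjoint (hfree : ∀ (v : V) (x : X), v +ᵥ x = x → v = 0) (x : X) (v w : V)
    (hvw : v ≠ w) :
    ∃ A : Set X, IsOpen A ∧ x ∈ A ∧ ∀ y ∈ A, ∀ z ∈ A, v +ᵥ y ≠ w +ᵥ z := by
  have hne : v +ᵥ x ≠ w +ᵥ x := fun h => hvw <| by
    have h' : (-w + v) +ᵥ x = x := by rw [add_vadd, h, neg_vadd_vadd]
    have := hfree _ _ h'
    rwa [neg_add_eq_zero, eq_comm] at this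
  obtain ⟨A, B, hA, hB, hxA, hxB, hAB⟩ := t2_separation hne
  refine ⟨(fun y => v +ᵥ y) ⁻¹' A ∩ (fun y => w +ᵥ y) ⁻¹' B,
    (hA.preimage (continuous_const_vadd v)).inter (hB.preimage (continuous_const_vadd w)),
    ⟨hxA, hxB⟩, fun y hy z hz h => ?_⟩
  exact Set.disjoint_left.1 hAB hy.1 (show v +ᵥ y ∈ B by rw [h]; exact hz.2)

/-- Charts with given slots exist over small neighbourhoods. -/
theorem exists_chart (hfree : ∀ (v : V) (x : X), v +ᵥ x = x → v = 0) {T : Type*} [Finite T]
    (e : T ↪ V × Fin m) (x : X) {O : Set X} (hO : IsOpen O) (hx : x ∈ O) :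
    ∃ c : Chart V X m T, c.slot = ⇑e ∧ x ∈ c.base ∧ c.base ⊆ O := by
  classical
  have hsep : ∀ p : T × T, ∃ A : Set X, IsOpen A ∧ x ∈ A ∧
      ((e p.1).1 ≠ (e p.2).1 → ∀ y ∈ A, ∀ z ∈ A, (e p.1).1 +ᵥ y ≠ (e p.2).1 +ᵥ z) := fun p => by
    by_cases h : (e p.1).1 = (e p.2).1
    · exact ⟨Set.univ, isOpen_univ, trivial, fun h' => absurd h h'⟩
    · obtain ⟨A, h1, h2, h3⟩ := eventually_disjoint hfree x _ _ h
      exact ⟨A, h1, h2, fun _ => h3⟩
  choose A hA hxA hdis using hsep
  obtain ⟨U, hU, hxU, hsub⟩ := compact_exists_isClopen_in_isOpen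
    (hO.inter (isOpen_iInter_of_finite hA)) (⟨hx, Set.mem_iInter.2 hxA⟩ : x ∈ O ∩ ⋂ p, A p)
  refine ⟨⟨U, hU, e, fun a b y hy z hz hi h => ?_⟩, rfl, hxU, hsub.trans Set.inter_subset_left⟩
  by_cases hv : (e a).1 = (e b).1
  · exact e.injective (Prod.ext hv hi)
  · exact absurd h (hdis (a, b) hv y (Set.mem_iInter.1 (hsub hy).2 _) z
      (Set.mem_iInter.1 (hsub hz).2 _))

/-- Conjugates by the alternating full group stay. -/
def ConjInv (N : Subgroup (Perm (X × Fin m))) : Prop :=
  N ≤ altGroup V X m ∧ ∀ g ∈ altGroup V X m, ∀ n ∈ N, g * n * g⁻¹ ∈ N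

omit [CompactSpace X] [T2Space X] [TotallyDisconnectedSpace X] in
/-- One nontrivial even slot permutation gives all of them. -/
theorem alternating_mem {N : Subgroup (Perm (X × Fin m))} (hN : ConjInv (V := V) N) {T : Type*}
    [DecidableEq T] [Fintype T] (hT : 5 ≤ Nat.card T) (c : Chart V X m T) {π : Perm T}
    (hπ : π ∈ alternatingGroup T) (hne : π ≠ 1) (hmem : c.perm π ∈ N)
    {σ : Perm T} (hσ : σ ∈ alternatingGroup T) : c.perm σ ∈ N := by
  have := alternatingGroup.isSimpleGroup hT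
  set K : Subgroup (alternatingGroup T) := N.comap (c.perm.comp (alternatingGroup T).subtype)
  have hK : K.Normal := ⟨fun n hn g => by
    have := hN.2 _ (c.perm_alternating_mem g.2) _ hn
    simpa [K, Subgroup.mem_comap, map_mul, map_inv] using this⟩
  rcases hK.eq_bot_or_eq_top with h | h
  · have h1 : (⟨π, hπ⟩ : alternatingGroup T) ∈ K := hmem
    rw [h, Subgroup.mem_bot] at h1
    exact absurd (congrArg Subtype.val h1) hne
  · exact (show (⟨σ, hσ⟩ : alternatingGroup T) ∈ K by rw [h]; trivial)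

/-- The slots `(0, i)`. -/
def zeroSlot (V : Type*) [AddCommGroup V] (m : ℕ) : Fin m ↪ V × Fin m :=
  ⟨fun i => (0, i), fun _ _ h => (Prod.ext_iff.1 h).2⟩

/-- The chart of a clopen set with the slots `(0, i)`. -/
def plainChart (U : Set X) (hU : IsClopen U) : Chart V X m (Fin m) where
  base := U
  clopen := hU
  slot := zeroSlot V m
  disj _ _ _ _ _ _ h _ := h

theorem exists_good {N : Subgroup (Perm (X × Fin m))} (hN : ConjInv (V := V) N) (hne : N ≠ ⊥)
    (hfree : ∀ (v : V) (x : X), v +ᵥ x = x → v = 0) (hm : 5 ≤ m) :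
    ∃ U : Set X, IsClopen U ∧ U.Nonempty ∧ ∀ W (hW : IsClopen W), W ⊆ U →
      ∀ π : Perm (Fin m), π ∈ alternatingGroup (Fin m) →
        (plainChart (V := V) W hW).perm π ∈ N := by
  classical
  obtain ⟨⟨g, hgN⟩, hg1'⟩ := Subgroup.ne_bot_iff_exists_ne_one.1 hne
  have hg1 : g ≠ 1 := fun h => hg1' (Subtype.ext h)
  obtain ⟨⟨x, i⟩, hp⟩ : ∃ p, g p ≠ p := by
    by_contra h
    push Not at h
    exact hg1 (Equiv.ext h)
  have hgA := hN.1 hgN
  have hloc := fun k => isLocTrans_of_mem hgA (x, k)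
  choose O hO hxO q hq using hloc
  simp only at hxO hq
  set P : Finset (V × Fin m) :=
    Finset.univ.image (zeroSlot V m) ∪ Finset.univ.image q with hP
  obtain ⟨c, hslot, hxc, hsub⟩ := exists_chart hfree (Function.Embedding.subtype (· ∈ P)) x
    (isOpen_iInter_of_finite hO) (Set.mem_iInter.2 hxO)
  refine ⟨c.base, c.clopen, ⟨x, hxc⟩, fun W hW hWsub π hπ => ?_⟩
  rcases W.eq_empty_or_nonempty with rfl | hWne
  · rw [show (plainChart (V := V) ∅ hW).perm π = 1 from
      Equiv.ext fun p => Chart.perm_of_not _ _ fun a y hy => absurd hy (Set.notMem_empty y)]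
    exact one_mem _
  set d := c.restrict W hW hWsub with hd
  -- choose two spare indices
  obtain ⟨k, hki, hkj⟩ : ∃ k : Fin m, k ≠ i ∧ k ≠ (q i).2 := by
    have : ((Finset.univ.erase i).erase (q i).2).Nonempty := by
      rw [← Finset.card_pos]
      have h1 := Finset.pred_card_le_card_erase (a := (q i).2) (s := Finset.univ.erase i)
      rw [Finset.card_erase_of_mem (Finset.mem_univ i), Finset.card_univ, Fintype.card_fin] at h1
      omega
    obtain ⟨k, hk⟩ := this
    simp only [Finset.mem_erase, Finset.mem_univ, and_true] at hk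
    exact ⟨k, hk.2, hk.1⟩
  obtain ⟨l, hli, hlk, hlj⟩ : ∃ l : Fin m, l ≠ i ∧ l ≠ k ∧ l ≠ (q i).2 := by
    have : (((Finset.univ.erase i).erase k).erase (q i).2).Nonempty := by
      rw [← Finset.card_pos]
      have h1 := Finset.pred_card_le_card_erase (a := (q i).2)
        (s := (Finset.univ.erase i).erase k)
      rw [Finset.card_erase_of_mem (a := k) (by simp [hki]),
        Finset.card_erase_of_mem (Finset.mem_univ i), Finset.card_univ, Fintype.card_fin] at h1
      omega
    obtain ⟨l, hl⟩ := this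
    simp only [Finset.mem_erase, Finset.mem_univ, and_true] at hl
    exact ⟨l, hl.2.2, hl.2.1, hl.1⟩
  let ι : Fin m ↪ {p // p ∈ P} := ⟨fun a => ⟨zeroSlot V m a, by simp [hP]⟩, fun a b h =>
    (zeroSlot V m).injective (congrArg Subtype.val h)⟩
  let f₀ : Fin 3 → Fin m := ![i, k, l]
  have hf₀ : Function.Injective f₀ := by
    intro a b hab
    fin_cases a <;> fin_cases b <;> simp_all [f₀, eq_comm]
  let f : Fin 3 ↪ {p // p ∈ P} := ⟨fun a => ι (f₀ a), fun a b h => hf₀ (ι.injective h)⟩
  have hpt : ∀ a : Fin m, ∀ y ∈ c.base, g (y, a) = ((q a).1 +ᵥ y, (q a).2) := fun a y hy =>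
    hq a y (Set.mem_iInter.1 (hsub hy) a)
  have hqinj : Function.Injective q := fun a b h => by
    have e : g (x, a) = g (x, b) := by rw [hpt a x hxc, hpt b x hxc, h]
    exact (Prod.ext_iff.1 (g.injective e)).2
  let f' : Fin 3 ↪ {p // p ∈ P} := ⟨fun a => ⟨q (f₀ a), by simp [hP]⟩, fun a b h =>
    hf₀ (hqinj (congrArg Subtype.val h))⟩
  set s := Perm.viaEmbedding (finRotate 3) f
  set s' := Perm.viaEmbedding (finRotate 3) f'
  have hslotd : ∀ p, d.slot p = p.1 := fun p => by simp [hd, Chart.restrict, hslot]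
  have hconj : g * d.perm s * g⁻¹ = d.perm s' := by
    rw [← Chart.perm_comap, ← Chart.perm_comap, mul_inv_eq_iff_eq_mul]
    refine Equiv.ext fun p => ?_
    have e1 : ∀ b, ∀ y ∈ W, g ((d.comap f).pt b y) = (d.comap f').pt b y := fun b y hy => by
      simp only [Chart.pt, Chart.comap, hslotd]
      show g ((0 : V) +ᵥ y, f₀ b) = ((q (f₀ b)).1 +ᵥ y, (q (f₀ b)).2)
      rw [zero_vadd]
      exact hpt (f₀ b) y (hWsub hy)
    rw [Perm.mul_apply, Perm.mul_apply]
    by_cases hp : ∃ b, ∃ y ∈ W, (d.comap f).pt b y = p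
    · obtain ⟨b, y, hy, rfl⟩ := hp
      rw [(d.comap f).perm_pt _ b hy, e1 _ y hy, e1 _ y hy, (d.comap f').perm_pt _ b hy]
    · push Not at hp
      rw [(d.comap f).perm_of_not _ hp, (d.comap f').perm_of_not _ fun b y hy h => ?_]
      exact hp b y hy (g.injective ((e1 b y hy).trans h))
  have hsA : d.perm s ∈ altGroup V X m := d.perm_alternating_mem (viaEmbedding_rotate_mem f)
  have hmem : d.perm (s' * s⁻¹) ∈ N := by
    rw [map_mul, map_inv, ← hconj]
    have := mul_mem hgN (hN.2 _ hsA _ (inv_mem hgN))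
    rw [show g * d.perm s * g⁻¹ * (d.perm s)⁻¹ = g * (d.perm s * g⁻¹ * (d.perm s)⁻¹) by group]
    exact this
  have hss : s' * s⁻¹ ≠ 1 := by
    rw [Ne, mul_inv_eq_one]
    intro h
    have h0 : f' 0 ∉ Set.range f := by
      rintro ⟨a, ha⟩
      have e : ((0, f₀ a) : V × Fin m) = q i := congrArg Subtype.val ha
      have e2 : f₀ a = (q i).2 := congrArg Prod.snd e
      fin_cases a
      · apply hp
        rw [hpt i x hxc, ← e]
        simp [f₀]
      · exact hkj e2
      · exact hlj e2
    have h1 : s (f' 0) = f' 0 := Perm.viaEmbedding_apply_of_notMem _ _ _ h0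
    rw [← h] at h1
    have h2 : s' (f' 0) = f' (finRotate 3 0) := Perm.viaEmbedding_apply _ _ _
    rw [h2] at h1
    simpa using f'.injective h1
  have h5 : 5 ≤ Nat.card {p // p ∈ P} := by
    rw [Nat.card_eq_fintype_card]
    exact hm.trans (le_of_eq_of_le (Fintype.card_fin m).symm (Fintype.card_le_of_embedding ι))
  have halt : s' * s⁻¹ ∈ alternatingGroup {p // p ∈ P} :=
    mul_mem (viaEmbedding_rotate_mem f') (inv_mem (viaEmbedding_rotate_mem f))
  have hπ' : Perm.viaEmbedding π ι ∈ alternatingGroup {p // p ∈ P} := by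
    rw [Perm.mem_alternatingGroup, Perm.viaEmbedding, Perm.sign_extendDomain]
    exact hπ
  have := alternating_mem hN h5 d halt hss hmem hπ'
  rwa [← Chart.perm_comap, Chart.perm_congr (d.comap ι) (plainChart W hW) rfl
    (funext fun a => hslotd (ι a))] at this

omit [ContinuousConstVAdd V X] [CompactSpace X] [T2Space X] [TotallyDisconnectedSpace X] in
theorem perm_split {T : Type*} (c : Chart V X m T) (U : Set X) (hU : IsClopen U) (W : Set X)
    (hW : IsClopen W) (hWc : W ⊆ c.base) (σ : Perm T) :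
    (c.restrict W hW hWc).perm σ =
      (c.restrict (W ∩ U) (hW.inter hU) (Set.inter_subset_left.trans hWc)).perm σ *
        (c.restrict (W \ U) (hW.diff hU) (Set.sdiff_subset.trans hWc)).perm σ := by
  refine Equiv.ext fun p => ?_
  rw [Perm.mul_apply]
  set cI := c.restrict (W ∩ U) (hW.inter hU) (Set.inter_subset_left.trans hWc) with hcI
  set cD := c.restrict (W \ U) (hW.diff hU) (Set.sdiff_subset.trans hWc) with hcD
  have huniq : ∀ a b : T, ∀ y ∈ c.base, ∀ z ∈ c.base, c.pt a y = c.pt b z → y = z :=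
    fun a b y hy z hz h => by
    simp only [Chart.pt, Prod.mk.injEq] at h
    obtain rfl := c.disj a b y hy z hz h.2 h.1
    exact (vadd_left_cancel_iff _).1 h.1
  by_cases hp : ∃ a, ∃ y ∈ W, (c.restrict W hW hWc).pt a y = p
  · obtain ⟨a, y, hy, rfl⟩ := hp
    rw [(c.restrict W hW hWc).perm_pt σ a hy]
    by_cases hyU : y ∈ U
    · rw [cD.perm_of_not σ (p := (c.restrict W hW hWc).pt a y) fun b z hz h => (hz.2 : z ∉ U) (huniq b a z (hWc hz.1) y (hWc hy) h ▸ hyU)]
      exact (cI.perm_pt σ a ⟨hy, hyU⟩).symm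
    · rw [show cD.perm σ ((c.restrict W hW hWc).pt a y) = cD.pt (σ a) y from
        cD.perm_pt σ a ⟨hy, hyU⟩]
      exact (cI.perm_of_not σ fun b z hz h =>
        hyU (huniq b (σ a) z (hWc hz.1) y (hWc hy) h ▸ hz.2)).symm
  · push Not at hp
    rw [(c.restrict W hW hWc).perm_of_not σ hp,
      cD.perm_of_not σ fun b z hz => hp b z hz.1, cI.perm_of_not σ fun b z hz => hp b z hz.1]

/-- A normal nontrivial subgroup contains every clopen 3-cycle. -/
theorem cycle_mem {N : Subgroup (Perm (X × Fin m))} (hN : ConjInv (V := V) N) (hne : N ≠ ⊥)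
    (hfree : ∀ (v : V) (x : X), v +ᵥ x = x → v = 0)
    (hmin : ∀ (x : X) (O : Set X), IsOpen O → O.Nonempty → ∃ v : V, v +ᵥ x ∈ O) (hm : 5 ≤ m)
    (c : Chart V X m (Fin 3)) : c.perm (finRotate 3) ∈ N := by
  classical
  obtain ⟨U, hU, hUne, hgood⟩ := exists_good hN hne hfree hm
  have hlocal : ∀ x ∈ c.base, ∃ O : Set X, IsClopen O ∧ x ∈ O ∧ ∀ W (hW : IsClopen W)
      (hWc : W ⊆ c.base), W ⊆ O → (c.restrict W hW hWc).perm (finRotate 3) ∈ N := by
    intro x hx
    obtain ⟨u, hu⟩ := hmin x U hU.isOpen hUne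
    set P : Finset (V × Fin m) := Finset.univ.image (zeroSlot V m) ∪
      Finset.univ.image fun a => ((c.slot a).1 - u, (c.slot a).2) with hP
    obtain ⟨d, hslot, hxd, hsub⟩ := exists_chart hfree (Function.Embedding.subtype (· ∈ P))
      (u +ᵥ x) (hU.isOpen.inter (c.clopen.isOpen.preimage (continuous_const_vadd (-u))))
      ⟨hu, by simpa using hx⟩
    refine ⟨(fun y => u +ᵥ y) ⁻¹' d.base, d.clopen.preimage (continuous_const_vadd u), hxd,
      fun W hW hWc hWO => ?_⟩
    have hW' : IsClopen ((fun y => (-u) +ᵥ y) ⁻¹' W) := hW.preimage (continuous_const_vadd _)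
    have hsubd : (fun y => (-u) +ᵥ y) ⁻¹' W ⊆ d.base := fun y hy => by
      simpa using hWO hy
    rcases W.eq_empty_or_nonempty with rfl | ⟨y₀, hy₀⟩
    · rw [show (c.restrict ∅ hW hWc).perm (finRotate 3) = 1 from
        Equiv.ext fun p => Chart.perm_of_not _ _ fun a y hy => absurd hy (Set.notMem_empty y)]
      exact one_mem _
    set e := d.restrict _ hW' hsubd with he
    have hsl : ∀ p, e.slot p = p.1 := fun p => by simp [he, Chart.restrict, hslot]
    let ι : Fin m ↪ {p // p ∈ P} := ⟨fun a => ⟨zeroSlot V m a, by simp [hP]⟩, fun a b h =>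
      (zeroSlot V m).injective (congrArg Subtype.val h)⟩
    let f : Fin 3 ↪ {p // p ∈ P} := ⟨fun a => ⟨((c.slot a).1 - u, (c.slot a).2),
        Finset.mem_union_right _ (Finset.mem_image_of_mem _ (Finset.mem_univ a))⟩,
      fun a b h => by
        have h' := congrArg Subtype.val h
        simp only [Prod.mk.injEq, sub_left_inj] at h'
        exact c.disj a b y₀ (hWc hy₀) y₀ (hWc hy₀) h'.2 (by rw [h'.1])⟩
    obtain ⟨g3⟩ : Nonempty (Fin 3 ↪ Fin m) :=
      ⟨(Fin.castLEEmb (by omega : 3 ≤ m))⟩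
    set π := Perm.viaEmbedding (finRotate 3) g3
    have hmem : e.perm (Perm.viaEmbedding π ι) ∈ N := by
      rw [← Chart.perm_comap, Chart.perm_congr (e.comap ι) (plainChart _ hW') rfl
        (funext fun a => hsl (ι a))]
      exact hgood _ hW' (fun y hy => (hsub (hsubd hy)).1) _ (viaEmbedding_rotate_mem g3)
    have halt : Perm.viaEmbedding π ι ∈ alternatingGroup {p // p ∈ P} := by
      rw [Perm.mem_alternatingGroup, Perm.viaEmbedding, Perm.sign_extendDomain]
      exact viaEmbedding_rotate_mem g3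
    have hne1 : Perm.viaEmbedding π ι ≠ 1 := fun h => by
      have h' := Equiv.ext_iff.1 h (ι (g3 0))
      rw [Perm.one_apply, Perm.viaEmbedding_apply, Perm.viaEmbedding_apply] at h'
      simpa using g3.injective (ι.injective h')
    have h5 : 5 ≤ Nat.card {p // p ∈ P} := by
      rw [Nat.card_eq_fintype_card]
      exact hm.trans (le_of_eq_of_le (Fintype.card_fin m).symm (Fintype.card_le_of_embedding ι))
    have := alternating_mem hN h5 e halt hne1 hmem (viaEmbedding_rotate_mem f)
    rw [← Chart.perm_comap] at this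
    convert this using 1
    have hpts : ∀ a z, (c.restrict W hW hWc).pt a z = (e.comap f).pt a (u +ᵥ z) := fun a z => by
      simp [Chart.pt, Chart.comap, Chart.restrict, hsl, f, sub_eq_add_neg, add_vadd]
    refine Equiv.ext fun p => ?_
    by_cases hp : ∃ a, ∃ z ∈ W, (c.restrict W hW hWc).pt a z = p
    · obtain ⟨a, z, hz, rfl⟩ := hp
      rw [(c.restrict W hW hWc).perm_pt _ a hz, hpts, hpts,
        (e.comap f).perm_pt _ a (show (-u) +ᵥ (u +ᵥ z) ∈ W by rwa [neg_vadd_vadd])]
    · push Not at hp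
      rw [(c.restrict W hW hWc).perm_of_not _ hp, (e.comap f).perm_of_not _ fun a z hz h => ?_]
      exact hp a ((-u) +ᵥ z) hz (by rw [hpts, vadd_neg_vadd]; exact h)
  choose O hO hxO hOmem using hlocal
  obtain ⟨t, ht⟩ := c.clopen.isClosed.isCompact.elim_finite_subcover
    (fun x : c.base => O x.1 x.2) (fun x => (hO x.1 x.2).isOpen)
    fun y hy => Set.mem_iUnion.2 ⟨⟨y, hy⟩, hxO y hy⟩
  suffices H : ∀ W (hW : IsClopen W) (hWc : W ⊆ c.base), W ⊆ (⋃ x ∈ t, O x.1 x.2) →
      (c.restrict W hW hWc).perm (finRotate 3) ∈ N by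
    have := H c.base c.clopen subset_rfl ht
    exact this
  clear ht
  induction t using Finset.induction_on with
  | empty =>
    intro W hW hWc hWsub
    rw [show (c.restrict W hW hWc).perm (finRotate 3) = 1 from
      Equiv.ext fun p => Chart.perm_of_not _ _ fun a y hy => by simpa using hWsub hy]
    exact one_mem _
  | insert a t _ ih =>
    intro W hW hWc hWsub
    rw [perm_split c _ (hO a.1 a.2) W hW hWc]
    refine mul_mem (hOmem _ _ _ _ _ Set.inter_subset_right) (ih _ _ _ fun y hy => ?_)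
    have := hWsub hy.1
    simp only [Finset.mem_insert, Set.mem_iUnion] at this ⊢
    obtain ⟨b, rfl | hb, hyb⟩ := this
    · exact absurd hyb hy.2
    · exact ⟨b, hb, hyb⟩

omit [ContinuousConstVAdd V X] in
theorem infinite_altGroup [Infinite X] (hm : 3 ≤ m) : Infinite (altGroup V X m) := by
  classical
  let f : Fin 3 ↪ Fin m := Fin.castLEEmb hm
  let F : {U : Set X // IsClopen U} → altGroup V X m := fun U =>
    ⟨((plainChart (V := V) U.1 U.2).comap f).perm (finRotate 3),
      Subgroup.subset_closure ⟨_, rfl⟩⟩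
  have hF : Function.Injective F := by
    suffices H : ∀ U W : {U : Set X // IsClopen U}, F U = F W → U.1 ⊆ W.1 from
      fun U W h => Subtype.ext (Set.Subset.antisymm (H U W h) (H W U h.symm))
    intro U W h x hx
    by_contra hxW
    have h' := Equiv.ext_iff.1 (congrArg Subtype.val h)
      (((plainChart (V := V) U.1 U.2).comap f).pt 0 x)
    simp only [F] at h'
    rw [Chart.perm_pt _ _ _ hx, Chart.perm_of_not _ _ fun b z hz e => hxW ?_] at h'
    · have h2 : Fin.castLE hm 1 = Fin.castLE hm 0 := (Prod.ext_iff.1 h').2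
      simp [Fin.ext_iff] at h2
    · have e' : (0 : V) +ᵥ z = (0 : V) +ᵥ x := (Prod.ext_iff.1 e).1
      rw [zero_vadd, zero_vadd] at e'
      exact e' ▸ hz
  have : Infinite {U : Set X // IsClopen U} := by
    by_contra hfin
    rw [not_infinite_iff_finite] at hfin
    have hinj : Function.Injective fun x : X => {U : {U : Set X // IsClopen U} | x ∈ U.1} := by
      intro x y hxy
      by_contra hne
      obtain ⟨U, hU, hxU, hyU⟩ := exists_isClopen_of_totally_separated hne
      have hiff := Set.ext_iff.1 hxy ⟨U, hU⟩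
      exact hyU (hiff.1 hxU)
    exact not_finite_iff_infinite.2 ‹Infinite X› (Finite.of_injective _ hinj)
  exact Infinite.of_injective F hF

/-- The alternating full group of a free minimal action on a Cantor-type space is simple. -/
theorem isSimpleGroup_altGroup [Infinite X] (hfree : ∀ (v : V) (x : X), v +ᵥ x = x → v = 0)
    (hmin : ∀ (x : X) (O : Set X), IsOpen O → O.Nonempty → ∃ v : V, v +ᵥ x ∈ O) (hm : 5 ≤ m) :
    IsSimpleGroup (altGroup V X m) := by
  have := infinite_altGroup (V := V) (X := X) (m := m) (by omega)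
  have : Nontrivial (altGroup V X m) := inferInstance
  refine ⟨fun K hK => ?_⟩
  by_cases hbot : K = ⊥
  · exact Or.inl hbot
  refine Or.inr ?_
  set N := K.map (altGroup V X m).subtype with hN
  have hC : ConjInv (V := V) N := by
    refine ⟨fun n ⟨k, _, hk⟩ => hk ▸ k.2, fun g hg n ⟨k, hk, e⟩ => ?_⟩
    exact ⟨⟨g, hg⟩ * k * (⟨g, hg⟩ : altGroup V X m)⁻¹, hK.conj_mem k hk _, by
      simp only [← e, map_mul, map_inv]; rfl⟩
  have hne : N ≠ ⊥ := fun h => hbot ((Subgroup.map_eq_bot_iff_of_injective _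
    (Subgroup.subtype_injective _)).1 h)
  have hle : altGroup V X m ≤ N := by
    rw [altGroup, Subgroup.closure_le]
    rintro g ⟨c, rfl⟩
    exact cycle_mem hC hne hfree hmin hm c
  refine eq_top_iff.2 fun k _ => ?_
  obtain ⟨k', hk', e⟩ := hle k.2
  rwa [← Subtype.ext e]

end Vale.Agent.P196.Simple
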